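import Vale.Agent.P237.Statement

/-! # Mixed volume, Holmes-Thompson volume and area -/

open MeasureTheory Metric Set Module Filter Topology
open scoped Pointwise

namespace Vale.Agent.P237.H344

open Vale.Agent.P237.Statement

variable {V : Type} [NormedAddCommGroup V] [InnerProductSpace ℝ V] [FiniteDimensional ℝ V]
  [MeasurableSpace V] [BorelSpace V]

/-- `A` is the first mixed volume `V(K, ..., K, M)`: the right derivative of `|K + t M| / n` at
`t = 0`. -/
def IsMixedVolume (K M : Set V) (A : ℝ) : Prop :=
  Tendsto (fun t : ℝ => (vol (K + t • M) - vol K) / (finrank ℝ V * t)) (𝓝[>] 0) (𝓝 A)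

/-- `K` is a positive homothetic copy of `M`. -/
def IsHomothetic (K M : Set V) : Prop :=
  ∃ (a : V) (r : ℝ), 0 < r ∧ K = (fun x => a + r • x) '' M

/-- `B` is the unit ball of a norm on `V`: an origin-symmetric convex body. -/
def IsUnitBall (B : Set V) : Prop := IsConvexBody B ∧ ∀ x ∈ B, -x ∈ B

/-- The polar body of `B`; for the unit ball of a norm it is the unit ball of the dual norm. -/
def polar (B : Set V) : Set V := {y | ∀ x ∈ B, inner ℝ x y ≤ 1}

/-- The Holmes-Thompson volume of `K` in the normed space with unit ball `B`. -/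
noncomputable def htVolume (B K : Set V) : ℝ := vol K * vol (polar B) / kappa (finrank ℝ V)

/-- `A` is the Holmes-Thompson surface area of the convex body `K` in the normed space with unit
ball `B`: one has `A = (n / κ_{n-1}) V(K, ..., K, Π(B°))`, that is
`A = κ_{n-1}⁻¹ ∫ |proj_{u^⊥} B°| dS_K(u)`. -/
def IsHTArea (B K : Set V) (A : ℝ) : Prop :=
  ∀ M : Set V, IsProjectionBody (polar B) M →
    IsMixedVolume K M (kappa (finrank ℝ V - 1) * A / finrank ℝ V)

end Vale.Agent.P237.H344
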