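import Vale.Agent.P237.H344.Mink
import Vale.Agent.P237.H344.HTDefs

/-! # Polar bodies, ellipsoids and their projection bodies -/

open MeasureTheory Metric Set Module Filter Topology
open scoped Pointwise

namespace Vale.Agent.P237.H344

open Vale.Agent.P237

variable {V : Type} [NormedAddCommGroup V] [InnerProductSpace ℝ V] [FiniteDimensional ℝ V]
  [MeasurableSpace V] [BorelSpace V]

omit [FiniteDimensional ℝ V] [MeasurableSpace V] [BorelSpace V] in
theorem polar_isClosed (B : Set V) : IsClosed (polar B) := by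
  have : polar B = ⋂ x ∈ B, {y | inner ℝ x y ≤ (1 : ℝ)} := by
    ext y; simp [polar]
  rw [this]
  refine isClosed_biInter fun x _ => isClosed_le (by fun_prop) continuous_const

omit [FiniteDimensional ℝ V] [MeasurableSpace V] [BorelSpace V] in
theorem polar_convex (B : Set V) : Convex ℝ (polar B) := by
  intro y hy z hz a b ha hb hab x hx
  rw [inner_add_right, inner_smul_right, inner_smul_right]
  have h1 := hy x hx
  have h2 := hz x hx
  nlinarith

theorem isUnitBall_iff (B : Set V) : IsUnitBall B ↔ IsSymBody B := by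
  constructor
  · rintro ⟨⟨h1, h2, h3⟩, h4⟩
    exact ⟨⟨h1, h2, h3⟩, h4⟩
  · rintro ⟨⟨h1, h2, h3⟩, h4⟩
    exact ⟨⟨h1, h2, h3⟩, h4⟩

theorem polar_isSymBody {B : Set V} (hB : IsSymBody B) : IsSymBody (polar B) := by
  obtain ⟨r, hr, hBr⟩ := Metric.isOpen_iff.1 isOpen_interior 0 hB.zero_mem_interior
  obtain ⟨R, hR0, hR⟩ := hB.compact.isBounded.subset_closedBall_lt 0 (0 : V)
  refine ⟨⟨polar_convex B, ?_, ?_⟩, ?_⟩
  · refine (isCompact_closedBall (0 : V) (2 / r)).of_isClosed_subset (polar_isClosed B) ?_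
    intro y hy
    rw [mem_closedBall_zero_iff]
    by_cases h0 : y = 0
    · rw [h0, norm_zero]; positivity
    have hn : 0 < ‖y‖ := norm_pos_iff.2 h0
    have hmem : (r / 2 / ‖y‖) • y ∈ B := by
      refine interior_subset (hBr ?_)
      rw [mem_ball_zero_iff, norm_smul, Real.norm_eq_abs, abs_of_pos (by positivity),
        div_mul_cancel₀ _ hn.ne']
      linarith
    have h := hy _ hmem
    rw [real_inner_smul_left, real_inner_self_eq_norm_sq] at h
    have e : r / 2 / ‖y‖ * ‖y‖ ^ 2 = r / 2 * ‖y‖ := by field_simp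
    rw [e] at h
    rw [le_div_iff₀ hr]
    linarith
  · refine ⟨0, mem_interior.2 ⟨ball 0 R⁻¹, ?_, isOpen_ball, mem_ball_self (by positivity)⟩⟩
    intro y hy x hx
    rw [mem_ball_zero_iff] at hy
    have hxR : ‖x‖ ≤ R := by
      have := hR hx
      rwa [mem_closedBall_zero_iff] at this
    calc inner ℝ x y ≤ ‖x‖ * ‖y‖ := real_inner_le_norm _ _
      _ ≤ R * R⁻¹ := by gcongr
      _ = 1 := mul_inv_cancel₀ hR0.ne'
  · intro y hy x hx
    have h := hy (-x) (hB.symm x hx)
    rw [inner_neg_right, ← inner_neg_left]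
    exact h

/-- Bipolar theorem for unit balls. -/
theorem polar_polar {B : Set V} (hB : IsSymBody B) : polar (polar B) = B := by
  apply Subset.antisymm
  · intro x hx
    refine ZA.mem_of_supp hB.compact hB.convex (hB.int.mono interior_subset) fun v => ?_
    by_cases hv : v = 0
    · subst hv
      rw [inner_zero_right]
      have h0 : (0 : V) ∈ B := interior_subset hB.zero_mem_interior
      have := ZA.le_supp hB.compact h0 (0 : V)
      rwa [inner_zero_right] at this
    · obtain ⟨r, hr, hBr⟩ := Metric.isOpen_iff.1 isOpen_interior 0 hB.zero_mem_interior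
      have hn : 0 < ‖v‖ := norm_pos_iff.2 hv
      have hs : 0 < supp B v := by
        have hmem : (r / 2 / ‖v‖) • v ∈ B := by
          refine interior_subset (hBr ?_)
          rw [mem_ball_zero_iff, norm_smul, Real.norm_eq_abs, abs_of_pos (by positivity),
            div_mul_cancel₀ _ hn.ne']
          linarith
        have h1 := ZA.le_supp hB.compact hmem v
        rw [real_inner_smul_left, real_inner_self_eq_norm_sq] at h1
        have : 0 < r / 2 / ‖v‖ * ‖v‖ ^ 2 := by positivity
        linarith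
      have hm : (supp B v)⁻¹ • v ∈ polar B := by
        intro z hz
        rw [inner_smul_right, inv_mul_le_iff₀ hs, mul_one]
        exact ZA.le_supp hB.compact hz v
      have h2 := hx _ hm
      rw [real_inner_smul_left, inv_mul_le_iff₀ hs, mul_one, real_inner_comm] at h2
      exact h2
  · intro x hx y hy
    rw [real_inner_comm]
    exact hy x hx

/-- The support function of the projection body of the unit ball. -/
theorem beta_unitBall {m : ℕ} (hd : finrank ℝ V = m + 1) (v : V) :
    beta (closedBall (0 : V) 1) v = Statement.kappa m * ‖v‖ := by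
  by_cases hv : v = 0
  · subst hv
    rw [beta_zero, norm_zero, mul_zero]
  · have hB : IsSymBody (closedBall (0 : V) 1) := isSymBody_ball
    rw [beta_eq_norm_mul hB.compact hB.convex hv, shadow_ball,
      AllN.vol_unitBall (AllN.finrank_perp_gen hd (norm_unit hv)), mul_comm]

/-- The polar of a centred ellipsoid. -/
theorem polar_ellipsoid (T : V ≃ₗ[ℝ] V) : ∃ S : V ≃ₗ[ℝ] V,
    polar (T '' closedBall (0 : V) 1) = S '' closedBall (0 : V) 1 ∧
    ∀ v, ‖S.symm v‖ = supp (T '' closedBall (0 : V) 1) v := by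
  set A : V →ₗ[ℝ] V := LinearMap.adjoint (T : V →ₗ[ℝ] V) with hA
  have hAdet : LinearMap.det A ≠ 0 := by
    rw [hA, det_adjoint_real]
    exact (LinearEquiv.isUnit_det' T).ne_zero
  set E : V ≃ₗ[ℝ] V := LinearEquiv.ofIsUnitDet (f := A) (v := (stdOrthonormalBasis ℝ V).toBasis)
    (v' := (stdOrthonormalBasis ℝ V).toBasis) (by
      rw [LinearMap.det_toMatrix]
      exact isUnit_iff_ne_zero.2 hAdet) with hE
  have hEA : ∀ y, E y = A y := fun y => rfl
  have hin : ∀ x y : V, inner ℝ (T x) y = inner ℝ x (E y) := by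
    intro x y
    rw [hEA, hA]
    exact (LinearMap.adjoint_inner_right (T : V →ₗ[ℝ] V) x y).symm
  have hsup : ∀ w : V, supp (closedBall (0 : V) 1) w = ‖w‖ := by
    intro w
    refine le_antisymm ?_ ?_
    · refine csSup_le ⟨_, ⟨0, by simp, rfl⟩⟩ ?_
      rintro _ ⟨x, hx, rfl⟩
      rw [mem_closedBall_zero_iff] at hx
      calc inner ℝ x w ≤ ‖x‖ * ‖w‖ := real_inner_le_norm _ _
        _ ≤ 1 * ‖w‖ := by gcongr
        _ = ‖w‖ := one_mul _
    · by_cases hw : w = 0
      · subst hw
        have := ZA.le_supp (isCompact_closedBall (0 : V) 1) (x := (0 : V)) (by simp) (0 : V)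
        simpa using this
      · have h1 := ZA.le_supp (isCompact_closedBall (0 : V) 1) (x := ‖w‖⁻¹ • w)
          (by rw [mem_closedBall_zero_iff, norm_unit hw]) w
        rw [real_inner_smul_left, real_inner_self_eq_norm_sq] at h1
        have hn : ‖w‖ ≠ 0 := norm_ne_zero_iff.2 hw
        have e : ‖w‖⁻¹ * ‖w‖ ^ 2 = ‖w‖ := by field_simp
        rwa [e] at h1
  refine ⟨E.symm, ?_, ?_⟩
  · ext y
    constructor
    · intro hy
      refine ⟨E y, ?_, E.symm_apply_apply y⟩
      rw [mem_closedBall_zero_iff, ← hsup]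
      refine csSup_le ⟨_, ⟨0, by simp, rfl⟩⟩ ?_
      rintro _ ⟨x, hx, rfl⟩
      have := hy (T x) ⟨x, hx, rfl⟩
      rwa [hin] at this
    · rintro ⟨z, hz, rfl⟩ _ ⟨x, hx, rfl⟩
      rw [hin, E.apply_symm_apply]
      rw [mem_closedBall_zero_iff] at hx hz
      calc inner ℝ x z ≤ ‖x‖ * ‖z‖ := real_inner_le_norm _ _
        _ ≤ 1 * 1 := by gcongr
        _ = 1 := one_mul _
  · intro v
    rw [LinearEquiv.symm_symm, ← hsup]
    unfold supp
    congr 1
    rw [← image_comp]
    refine image_congr fun x _ => ?_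
    simp only [Function.comp]
    rw [hin]

/-- An origin-symmetric ellipsoid is centred at the origin. -/
theorem ellipsoid_centred {B : Set V} (hB : IsSymBody B) (h : Statement.IsEllipsoid B) :
    ∃ T : V ≃ₗ[ℝ] V, B = T '' closedBall (0 : V) 1 := by
  obtain ⟨a, T, rfl⟩ := (Statement.isEllipsoid_iff B).1 h
  refine ⟨T, ?_⟩
  have ha : a = 0 := by
    by_contra ha
    set w := T.symm a with hw
    have hw0 : w ≠ 0 := by
      intro h0
      apply ha
      rw [← T.apply_symm_apply a, ← hw, h0, map_zero]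
    have hn : 0 < ‖w‖ := norm_pos_iff.2 hw0
    have h1 : a + T (‖w‖⁻¹ • w) ∈ (fun x => a + T x) '' closedBall (0 : V) 1 :=
      ⟨_, by rw [mem_closedBall_zero_iff, norm_unit hw0], rfl⟩
    obtain ⟨x, hx, hxe⟩ := hB.symm _ h1
    have h2 : T x = T (-(2 : ℝ) • w - ‖w‖⁻¹ • w) := by
      have hTw : T w = a := by rw [hw, T.apply_symm_apply]
      simp only [map_sub, map_smul, hTw] at hxe ⊢
      have : T x = -(a + ‖w‖⁻¹ • a) - a := by
        rw [← hxe]; abel
      rw [this]
      module
    have h3 := T.injective h2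
    rw [mem_closedBall_zero_iff, h3] at hx
    have h4 : -(2 : ℝ) • w - ‖w‖⁻¹ • w = (-(2 + ‖w‖⁻¹)) • w := by module
    rw [h4, norm_smul, Real.norm_eq_abs, abs_neg, abs_of_pos (by positivity), add_mul,
      inv_mul_cancel₀ hn.ne'] at hx
    linarith
  rw [ha]
  simp

/-- The projection body of the polar of a centred ellipsoid is a dilate of the ellipsoid. -/
theorem projBody_polar_ellipsoid (hd : 0 < finrank ℝ V) (T : V ≃ₗ[ℝ] V) : ∃ k : ℝ, 0 < k ∧
    projBody (polar (T '' closedBall (0 : V) 1)) = k • (T '' closedBall (0 : V) 1) := by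
  obtain ⟨m, hm⟩ : ∃ m, finrank ℝ V = m + 1 := Nat.exists_eq_succ_of_ne_zero hd.ne'
  obtain ⟨S, hS, hS2⟩ := polar_ellipsoid T
  have hb : IsSymBody (closedBall (0 : V) 1) := isSymBody_ball
  have hSB : IsBody (S '' closedBall (0 : V) 1) := hb.toIsBody.image S
  have hTB : IsBody (T '' closedBall (0 : V) 1) := hb.toIsBody.image T
  have hdet : 0 < |LinearMap.det (S : V →ₗ[ℝ] V)| :=
    abs_pos.2 (LinearEquiv.isUnit_det' S).ne_zero
  refine ⟨|LinearMap.det (S : V →ₗ[ℝ] V)| * Statement.kappa m,
    mul_pos hdet (AllN.kappa_pos m), ?_⟩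
  set k := |LinearMap.det (S : V →ₗ[ℝ] V)| * Statement.kappa m with hk
  have hk0 : 0 < k := mul_pos hdet (AllN.kappa_pos m)
  rw [hS, projBody_eq_wulff hSB.compact hSB.convex]
  have hbeta : ∀ v, beta (S '' closedBall (0 : V) 1) v = k * supp (T '' closedBall (0 : V) 1) v := by
    intro v
    have h1 := beta_image S (closedBall (0 : V) 1) (S.symm v)
    rw [S.apply_symm_apply, beta_unitBall hm, hS2] at h1
    rw [h1, hk]
    ring
  ext y
  rw [mem_smul_set_iff_inv_smul_mem₀ hk0.ne']
  constructor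
  · intro hy
    refine ZA.mem_of_supp hTB.compact hTB.convex (hTB.int.mono interior_subset) fun v => ?_
    have h1 := hy v
    rw [hbeta] at h1
    rw [real_inner_smul_left, inv_mul_le_iff₀ hk0]
    exact h1
  · intro hy v
    rw [hbeta, ← inv_mul_le_iff₀ hk0, ← real_inner_smul_left]
    exact ZA.le_supp hTB.compact hy v

end Vale.Agent.P237.H344
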