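import Vale.Agent.P237.H344.Ellip

/-! # Petty's inequality for two bodies and the isoperimetric inequality for Holmes-Thompson area -/

open MeasureTheory Metric Set Module Filter Topology
open scoped Pointwise

namespace Vale.Agent.P237.H344

open Vale.Agent.P237.Statement

variable {V : Type} [NormedAddCommGroup V] [InnerProductSpace ℝ V] [FiniteDimensional ℝ V]
  [MeasurableSpace V] [BorelSpace V]

omit [FiniteDimensional ℝ V] [MeasurableSpace V] [BorelSpace V] in
theorem isBody_of {K : Set V} (hK : IsConvexBody K) : Vale.Agent.P237.IsBody K :=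
  ⟨hK.1, hK.2.1, hK.2.2⟩

theorem existsUnique_mixed {K M : Set V} (hK : IsConvexBody K) (hM : IsConvexBody M)
    (hd : 0 < finrank ℝ V) : ∃! A, IsMixedVolume K M A :=
  ⟨mixed K M, tendsto_mixed (isBody_of hK) (isBody_of hM) hd, fun _ hA =>
    tendsto_nhds_unique hA (tendsto_mixed (isBody_of hK) (isBody_of hM) hd)⟩

theorem two_body {n : ℕ} (hn : 1 ≤ n) (hd : finrank ℝ V = n) (hP : PettyIn V n) {K L M : Set V}
    (hK : IsConvexBody K) (hL : IsConvexBody L) (hM : IsProjectionBody L M) {A : ℝ}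
    (hA : IsMixedVolume K M A) :
    kappa (n - 1) ^ n * kappa n ^ (2 - (n : ℤ)) * (vol K * vol L) ^ (n - 1) ≤ A ^ n ∧
      (A ^ n = kappa (n - 1) ^ n * kappa n ^ (2 - (n : ℤ)) * (vol K * vol L) ^ (n - 1) ↔
        IsEllipsoid L ∧ IsHomothetic K M) := by
  have hd0 : 0 < finrank ℝ V := by omega
  have hMb : Vale.Agent.P237.IsBody M := isBody_of hM.1
  have hKb := isBody_of hK
  have hvK : 0 < vol K := Vale.Agent.P237.Main.vol_pos hKb
  have hAm : A = mixed K M := tendsto_nhds_unique hA (tendsto_mixed hKb hMb hd0)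
  obtain ⟨g1, g2⟩ := mixed_pow_ge hKb hMb hd0
  rw [hd] at g1 g2
  obtain ⟨p1, p2⟩ := hP L M hL hM
  set m : ℝ := kappa (n - 1) ^ n * kappa n ^ (2 - (n : ℤ)) with hm
  have g1' : vol K ^ (n - 1) * vol M ≤ A ^ n := by rw [hAm]; exact g1
  have hKp : 0 < vol K ^ (n - 1) := pow_pos hvK _
  have e1 : m * (vol K * vol L) ^ (n - 1) = vol K ^ (n - 1) * (m * vol L ^ (n - 1)) := by
    rw [mul_pow]; ring
  rw [e1]
  have h1 : vol K ^ (n - 1) * (m * vol L ^ (n - 1)) ≤ vol K ^ (n - 1) * vol M :=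
    mul_le_mul_of_nonneg_left p1 hKp.le
  refine ⟨h1.trans g1', ?_, ?_⟩
  · intro h
    have h2 : vol K ^ (n - 1) * vol M = vol K ^ (n - 1) * (m * vol L ^ (n - 1)) :=
      le_antisymm (g1'.trans h.le) h1
    have h3 : vol M = m * vol L ^ (n - 1) := mul_left_cancel₀ hKp.ne' h2
    have h4 : A ^ n = vol K ^ (n - 1) * vol M := by rw [h, h3]
    refine ⟨p2.1 h3, ?_⟩
    rw [hAm] at h4
    exact homothetic_of_slope hKb hMb hd0 (by rw [hd]; exact g2 h4)
  · rintro ⟨hE, a, r, hr, rfl⟩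
    have h2 := mixed_homothetic hMb hd0 a hr hA
    rw [hd] at h2
    have h5 : vol M = m * vol L ^ (n - 1) := p2.2 hE
    rw [h2]
    exact congrArg _ h5

/-- For a centred ellipsoid `B`, homothetic to `Π(B°)` and homothetic to `B` are the same. -/
theorem homothetic_iff {B M : Set V} (hd : 0 < finrank ℝ V)
    (hB : Vale.Agent.P237.IsSymBody B) (hE : IsEllipsoid B) (hM : IsProjectionBody (polar B) M)
    (K : Set V) : IsHomothetic K M ↔ IsHomothetic K B := by
  obtain ⟨T, rfl⟩ := ellipsoid_centred hB hE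
  obtain ⟨k, hk, hk2⟩ := projBody_polar_ellipsoid hd T
  have hpol := polar_isSymBody hB
  have hpc : IsConvexBody (polar (T '' closedBall (0 : V) 1)) :=
    ⟨hpol.convex, hpol.compact, hpol.int⟩
  have hMe : M = k • (T '' closedBall (0 : V) 1) := by
    rw [(isProjectionBody_iff hpc).1 hM, hk2]
  constructor
  · rintro ⟨a, r, hr, rfl⟩
    refine ⟨a, r * k, by positivity, ?_⟩
    rw [hMe, ← image_smul, image_image (fun x : V => a + r • x) (fun x : V => k • x)]
    refine image_congr fun x _ => ?_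
    rw [mul_smul]
  · rintro ⟨a, r, hr, rfl⟩
    refine ⟨a, r / k, by positivity, ?_⟩
    rw [hMe, ← image_smul, image_image (fun x : V => a + (r / k) • x) (fun x : V => k • x)]
    refine image_congr fun x _ => ?_
    rw [smul_smul, div_mul_cancel₀ _ hk.ne']

theorem ellipsoid_polar {B : Set V} (hB : Vale.Agent.P237.IsSymBody B) (h : IsEllipsoid B) :
    IsEllipsoid (polar B) := by
  obtain ⟨T, rfl⟩ := ellipsoid_centred hB h
  obtain ⟨S, hS, _⟩ := polar_ellipsoid T
  rw [hS]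
  exact (isEllipsoid_iff _).2 ⟨0, S, by simp⟩

theorem ellipsoid_polar_iff {B : Set V} (hB : Vale.Agent.P237.IsSymBody B) :
    IsEllipsoid (polar B) ↔ IsEllipsoid B := by
  refine ⟨fun h => ?_, ellipsoid_polar hB⟩
  have := ellipsoid_polar (polar_isSymBody hB) h
  rwa [polar_polar hB] at this

/-- The isoperimetric inequality for the Holmes-Thompson area in normed spaces. -/
theorem holmes_thompson {n : ℕ} (hn : 1 ≤ n) (hd : finrank ℝ V = n) (hP : PettyIn V n)
    {B K : Set V} (hB : IsUnitBall B) (hK : IsConvexBody K) :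
    (∃! A, IsHTArea B K A) ∧ ∀ A, IsHTArea B K A →
      (n : ℝ) ^ n * kappa n * htVolume B K ^ (n - 1) ≤ A ^ n ∧
      (A ^ n = (n : ℝ) ^ n * kappa n * htVolume B K ^ (n - 1) ↔
        IsEllipsoid B ∧ IsHomothetic K B) := by
  have hd0 : 0 < finrank ℝ V := by omega
  have hBs := (isUnitBall_iff B).1 hB
  have hpol := polar_isSymBody hBs
  have hpc : IsConvexBody (polar B) := ⟨hpol.convex, hpol.compact, hpol.int⟩
  obtain ⟨M, hM, hMu⟩ := existsUnique_projectionBody hpc
  obtain ⟨A0, hA0, hA0u⟩ := existsUnique_mixed hK hM.1 hd0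
  have hk1 : 0 < kappa (finrank ℝ V - 1) := Vale.Agent.P237.AllN.kappa_pos _
  have hkn : 0 < kappa n := Vale.Agent.P237.AllN.kappa_pos _
  have hnR : (0 : ℝ) < finrank ℝ V := by exact_mod_cast hd0
  have hiff : ∀ A, IsHTArea B K A ↔ kappa (finrank ℝ V - 1) * A / finrank ℝ V = A0 := by
    intro A
    constructor
    · intro h
      exact hA0u _ (h M hM)
    · intro h M' hM'
      rw [hMu M' hM', h]
      exact hA0
  refine ⟨⟨finrank ℝ V * A0 / kappa (finrank ℝ V - 1), ?_, ?_⟩, ?_⟩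
  · change IsHTArea B K _
    rw [hiff]
    field_simp
  · intro A hA
    rw [hiff] at hA
    rw [← hA]
    field_simp
  · intro A hA
    obtain ⟨h1, h2⟩ := two_body hn hd hP hK hpc hM hA0
    rw [hiff] at hA
    rw [← hA, hd] at h1 h2
    obtain ⟨k, rfl⟩ : ∃ k, n = k + 1 := ⟨n - 1, by omega⟩
    have hz : kappa (k + 1) ^ (2 - ((k + 1 : ℕ) : ℤ)) = kappa (k + 1) / kappa (k + 1) ^ k := by
      rw [show (2 - ((k + 1 : ℕ) : ℤ)) = 1 - (k : ℤ) by push_cast; ring,
        zpow_sub₀ hkn.ne', zpow_one, zpow_natCast]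
    rw [Nat.add_sub_cancel] at h1 h2 ⊢
    rw [hd, Nat.add_sub_cancel] at hk1
    have hn1 : (0 : ℝ) < ((k + 1 : ℕ) : ℝ) := by positivity
    have hvol : htVolume B K = vol K * vol (polar B) / kappa (k + 1) := by
      unfold htVolume
      rw [hd]
      rfl
    set c : ℝ := kappa k ^ (k + 1) / ((k + 1 : ℕ) : ℝ) ^ (k + 1) with hc
    have hc0 : 0 < c := by positivity
    have eL : kappa k ^ (k + 1) * kappa (k + 1) ^ (2 - ((k + 1 : ℕ) : ℤ)) *
        (vol K * vol (polar B)) ^ k =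
        c * (((k + 1 : ℕ) : ℝ) ^ (k + 1) * kappa (k + 1) * htVolume B K ^ k) := by
      rw [hz, hvol, hc, div_pow]
      field_simp
    have eR : (kappa k * A / ((k + 1 : ℕ) : ℝ)) ^ (k + 1) = c * A ^ (k + 1) := by
      rw [hc, div_pow, mul_pow]
      ring
    rw [eL, eR] at h1 h2
    refine ⟨le_of_mul_le_mul_left h1 hc0, ?_⟩
    rw [← mul_right_inj' hc0.ne', h2, ellipsoid_polar_iff hBs]
    constructor
    · rintro ⟨hE, hH⟩
      exact ⟨hE, (homothetic_iff hd0 hBs hE hM K).1 hH⟩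
    · rintro ⟨hE, hH⟩
      exact ⟨hE, (homothetic_iff hd0 hBs hE hM K).2 hH⟩

end Vale.Agent.P237.H344
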