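import Vale.Agent.P237.Bd3.B1

/-! # The first mixed volume and Minkowski's first inequality, with its equality case -/

open MeasureTheory Metric Set Module Filter Topology
open scoped Pointwise

namespace Vale.Agent.P237.H344

open Vale.Agent.P237

variable {V : Type*} [NormedAddCommGroup V] [InnerProductSpace ℝ V] [FiniteDimensional ℝ V]
  [MeasurableSpace V] [BorelSpace V]

/-- `n`-th root of the volume of `K + t M`. -/
noncomputable def root (K M : Set V) (t : ℝ) : ℝ := vol (K + t • M) ^ ((1 : ℝ) / finrank ℝ V)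

/-- difference quotient of the root -/
noncomputable def quo (K M : Set V) (t : ℝ) : ℝ := (root K M t - root K M 0) / t

omit [FiniteDimensional ℝ V] [MeasurableSpace V] [BorelSpace V] in
theorem add_zero_smul {K M : Set V} (hM : M.Nonempty) : K + (0 : ℝ) • M = K := by
  rw [zero_smul_set hM, add_zero]

theorem root_zero {K M : Set V} (hM : M.Nonempty) :
    root K M 0 = vol K ^ ((1 : ℝ) / finrank ℝ V) := by
  unfold root
  rw [add_zero_smul hM]

theorem vol_smul_root {r : ℝ} (hr : 0 ≤ r) (S : Set V) (hd : 0 < finrank ℝ V) :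
    vol (r • S) ^ ((1 : ℝ) / finrank ℝ V) = r * vol S ^ ((1 : ℝ) / finrank ℝ V) := by
  have hdR : (finrank ℝ V : ℝ) ≠ 0 := by exact_mod_cast hd.ne'
  rw [vol_smul_set_of_nonneg hr, Real.mul_rpow (by positivity) (vol_nonneg _), one_div,
    Real.pow_rpow_inv_natCast hr hd.ne']

omit [FiniteDimensional ℝ V] [MeasurableSpace V] [BorelSpace V] in
/-- Minkowski combination of a convex set. -/
theorem combo {K : Set V} (hK : Convex ℝ K) {a b : ℝ} (ha : 0 ≤ a) (hb : 0 ≤ b)
    (hab : a + b = 1) : a • K + b • K = K := by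
  rw [← hK.add_smul ha hb, hab, one_smul]

theorem quo_antitone {K M : Set V} (hK : IsBody K) (hM : IsBody M) (hd : 0 < finrank ℝ V)
    {s t : ℝ} (hs : 0 < s) (hst : s ≤ t) : quo K M t ≤ quo K M s := by
  have ht : 0 < t := hs.trans_le hst
  have nM : M.Nonempty := hM.int.mono interior_subset
  have nK : K.Nonempty := hK.int.mono interior_subset
  set l : ℝ := s / t with hl
  have hl0 : 0 < l := div_pos hs ht
  have hl1 : l ≤ 1 := (div_le_one ht).2 hst
  have hlt : l * t = s := div_mul_cancel₀ s ht.ne'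
  have e : K + s • M = (1 - l) • K + l • (K + t • M) := by
    rw [smul_add, ← add_assoc, combo hK.convex (by linarith) hl0.le (by ring), smul_smul, hlt]
  have h := brunn_minkowski (K := (1 - l) • K) (L := l • (K + t • M))
    (hK.compact.smul _) ((hK.compact.add (hM.compact.smul t)).smul _)
    (nK.smul_set) ((nK.add nM.smul_set).smul_set) hd
  rw [← e, vol_smul_root (by linarith) _ hd, vol_smul_root hl0.le _ hd] at h
  have h1 : (1 - l) * root K M 0 + l * root K M t ≤ root K M s := by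
    rw [root_zero nM]
    exact h
  unfold quo
  rw [div_le_div_iff₀ ht hs]
  have h2 : l * (root K M t - root K M 0) ≤ root K M s - root K M 0 := by linarith
  have h3 := mul_le_mul_of_nonneg_left h2 ht.le
  have h4 : t * (l * (root K M t - root K M 0)) = (root K M t - root K M 0) * s := by
    rw [← hlt]; ring
  linarith

theorem quo_ge {K M : Set V} (hK : IsBody K) (hM : IsBody M) (hd : 0 < finrank ℝ V)
    {t : ℝ} (ht : 0 < t) : vol M ^ ((1 : ℝ) / finrank ℝ V) ≤ quo K M t := by
  have nM : M.Nonempty := hM.int.mono interior_subset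
  have nK : K.Nonempty := hK.int.mono interior_subset
  have h := brunn_minkowski (K := K) (L := t • M) hK.compact (hM.compact.smul t) nK nM.smul_set hd
  rw [vol_smul_root ht.le _ hd] at h
  unfold quo
  rw [le_div_iff₀ ht, root_zero nM]
  unfold root
  linarith

theorem quo_bdd {K M : Set V} (hK : IsBody K) (hM : IsBody M) (hd : 0 < finrank ℝ V) :
    ∃ C : ℝ, ∀ t : ℝ, 0 < t → quo K M t ≤ C := by
  have nM : M.Nonempty := hM.int.mono interior_subset
  obtain ⟨z, hz⟩ := hK.int
  obtain ⟨r, hr, hzr⟩ := Metric.isOpen_iff.1 isOpen_interior z hz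
  obtain ⟨R, hR0, hR⟩ := hM.compact.isBounded.subset_closedBall_lt 0 (0 : V)
  refine ⟨2 * R / r * vol K ^ ((1 : ℝ) / finrank ℝ V), fun t ht => ?_⟩
  set l : ℝ := t * (2 * R / r) with hl
  have hl0 : 0 ≤ l := by positivity
  have hsub : K + t • M ⊆ (fun x => (-(l • z)) + x) '' ((1 + l) • K) := by
    rintro _ ⟨k, hk, _, ⟨m, hm, rfl⟩, rfl⟩
    have hmR : ‖m‖ ≤ R := by
      have := hR hm
      rwa [mem_closedBall_zero_iff] at this
    -- the point z + (r / (2R)) m lies in K
    have hp : z + (r / (2 * R)) • m ∈ K := by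
      refine interior_subset (hzr ?_)
      rw [mem_ball, dist_eq_norm, add_sub_cancel_left, norm_smul, Real.norm_eq_abs,
        abs_of_nonneg (by positivity)]
      calc r / (2 * R) * ‖m‖ ≤ r / (2 * R) * R := by gcongr
        _ = r / 2 := by field_simp
        _ < r := by linarith
    have hp2 : k + l • (z + (r / (2 * R)) • m) ∈ (1 + l) • K := by
      rw [hK.convex.add_smul zero_le_one hl0, one_smul]
      exact add_mem_add hk (smul_mem_smul_set hp)
    refine ⟨_, hp2, ?_⟩
    have e1 : l * (r / (2 * R)) = t := by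
      rw [hl]; field_simp
    simp only
    rw [smul_add, smul_smul, e1]
    abel
  have hcomp : IsCompact ((fun x => (-(l • z)) + x) '' ((1 + l) • K)) :=
    (hK.compact.smul _).image (by fun_prop)
  have h1 : vol (K + t • M) ≤ vol ((1 + l) • K) := by
    refine (vol_mono hcomp hsub).trans (le_of_eq ?_)
    exact vol_image_add_left _ _
  have h2 : root K M t ≤ (1 + l) * vol K ^ ((1 : ℝ) / finrank ℝ V) := by
    rw [← vol_smul_root (by positivity) _ hd]
    exact Real.rpow_le_rpow (vol_nonneg _) h1 (by positivity)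
  unfold quo
  rw [div_le_iff₀ ht, root_zero nM]
  have : l = 2 * R / r * t := by rw [hl]; ring
  rw [this] at h2
  linarith

/-- limit of the difference quotient -/
noncomputable def slope0 (K M : Set V) : ℝ := sSup (quo K M '' Ioi 0)

theorem quo_le_slope0 {K M : Set V} (hK : IsBody K) (hM : IsBody M) (hd : 0 < finrank ℝ V)
    {t : ℝ} (ht : 0 < t) : quo K M t ≤ slope0 K M := by
  obtain ⟨C, hC⟩ := quo_bdd hK hM hd
  refine le_csSup ⟨C, ?_⟩ (mem_image_of_mem _ ht)
  rintro _ ⟨s, hs, rfl⟩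
  exact hC s hs

theorem tendsto_quo {K M : Set V} (hK : IsBody K) (hM : IsBody M) (hd : 0 < finrank ℝ V) :
    Tendsto (quo K M) (𝓝[>] 0) (𝓝 (slope0 K M)) := by
  rw [tendsto_order]
  constructor
  · intro a ha
    have hne : (quo K M '' Ioi 0).Nonempty := ⟨_, mem_image_of_mem _ (mem_Ioi.2 one_pos)⟩
    obtain ⟨_, ⟨s, hs, rfl⟩, has⟩ := exists_lt_of_lt_csSup hne ha
    have : Ioo (0 : ℝ) s ∈ 𝓝[>] (0 : ℝ) := Ioo_mem_nhdsGT hs
    filter_upwards [this] with t ht
    exact has.trans_le (quo_antitone hK hM hd ht.1 ht.2.le)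
  · intro a ha
    filter_upwards [self_mem_nhdsWithin] with t ht
    exact (quo_le_slope0 hK hM hd ht).trans_lt ha

theorem slope0_ge {K M : Set V} (hK : IsBody K) (hM : IsBody M) (hd : 0 < finrank ℝ V) :
    vol M ^ ((1 : ℝ) / finrank ℝ V) ≤ slope0 K M :=
  (quo_ge hK hM hd one_pos).trans (quo_le_slope0 hK hM hd one_pos)

theorem root_pow (K M : Set V) (t : ℝ) (hd : 0 < finrank ℝ V) :
    root K M t ^ finrank ℝ V = vol (K + t • M) := by
  unfold root
  rw [one_div, Real.rpow_inv_natCast_pow (vol_nonneg _) hd.ne']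

/-- The first mixed volume as a function of the two bodies. -/
noncomputable def mixed (K M : Set V) : ℝ :=
  (vol K ^ ((1 : ℝ) / finrank ℝ V)) ^ (finrank ℝ V - 1) * slope0 K M

theorem tendsto_mixed {K M : Set V} (hK : IsBody K) (hM : IsBody M) (hd : 0 < finrank ℝ V) :
    Tendsto (fun t : ℝ => (vol (K + t • M) - vol K) / (finrank ℝ V * t)) (𝓝[>] 0)
      (𝓝 (mixed K M)) := by
  have nM : M.Nonempty := hM.int.mono interior_subset
  set n := finrank ℝ V with hn
  have h1 : HasDerivWithinAt (root K M) (slope0 K M) (Ioi 0) 0 := by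
    rw [hasDerivWithinAt_iff_tendsto_slope]
    have e : Ioi (0 : ℝ) \ {0} = Ioi 0 := by
      ext x; simp only [Set.mem_sdiff, mem_Ioi, mem_singleton_iff]
      constructor
      · exact fun h => h.1
      · exact fun h => ⟨h, h.ne'⟩
    rw [e]
    refine (tendsto_quo hK hM hd).congr' ?_
    filter_upwards [self_mem_nhdsWithin] with t ht
    unfold quo
    rw [slope_def_field, sub_zero]
  have h2 := h1.pow n
  rw [hasDerivWithinAt_iff_tendsto_slope] at h2
  have e : Ioi (0 : ℝ) \ {0} = Ioi 0 := by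
    ext x; simp only [Set.mem_sdiff, mem_Ioi, mem_singleton_iff]
    constructor
    · exact fun h => h.1
    · exact fun h => ⟨h, h.ne'⟩
  rw [e] at h2
  have hn0 : (n : ℝ) ≠ 0 := by exact_mod_cast hd.ne'
  have h3 := h2.div_const (n : ℝ)
  have e2 : (n : ℝ) * root K M 0 ^ (n - 1) * slope0 K M / n = mixed K M := by
    rw [root_zero nM, mul_assoc, mul_div_cancel_left₀ _ hn0]
    rfl
  rw [e2] at h3
  refine h3.congr' ?_
  filter_upwards [self_mem_nhdsWithin] with t ht
  rw [slope_def_field, sub_zero]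
  have h4 : (root K M ^ n) t = vol (K + t • M) := root_pow K M t hd
  have h5 : (root K M ^ n) 0 = vol K := by
    have := root_pow K M 0 hd
    rw [add_zero_smul nM] at this
    exact this
  rw [h4, h5, div_div, mul_comm t]

theorem mixed_pow_ge {K M : Set V} (hK : IsBody K) (hM : IsBody M) (hd : 0 < finrank ℝ V) :
    vol K ^ (finrank ℝ V - 1) * vol M ≤ mixed K M ^ finrank ℝ V ∧
      (mixed K M ^ finrank ℝ V = vol K ^ (finrank ℝ V - 1) * vol M →
        slope0 K M = vol M ^ ((1 : ℝ) / finrank ℝ V)) := by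
  have hvK : 0 < vol K := Main.vol_pos hK
  have hvM : 0 < vol M := Main.vol_pos hM
  set n := finrank ℝ V with hn
  have hs := slope0_ge hK hM hd
  have hmp : 0 < vol M ^ ((1 : ℝ) / finrank ℝ V) := Real.rpow_pos_of_pos hvM _
  have e1 : mixed K M ^ n = vol K ^ (n - 1) * slope0 K M ^ n := by
    unfold mixed
    rw [mul_pow, ← pow_mul, mul_comm (finrank ℝ V - 1) n, pow_mul, one_div,
      Real.rpow_inv_natCast_pow (vol_nonneg _) hd.ne']
  have e2 : (vol M ^ ((1 : ℝ) / finrank ℝ V)) ^ n = vol M := by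
    rw [one_div, Real.rpow_inv_natCast_pow (vol_nonneg _) hd.ne']
  rw [e1]
  constructor
  · refine mul_le_mul_of_nonneg_left ?_ (by positivity)
    calc vol M = (vol M ^ ((1 : ℝ) / finrank ℝ V)) ^ n := e2.symm
      _ ≤ _ := pow_le_pow_left₀ hmp.le hs n
  · intro h
    have h1 : slope0 K M ^ n = vol M :=
      mul_left_cancel₀ (pow_ne_zero _ hvK.ne') h
    rw [← e2] at h1
    exact (pow_left_inj₀ (hmp.le.trans hs) hmp.le hd.ne').1 h1

/-- Equality in Minkowski's first inequality: the bodies are homothetic. -/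
theorem homothetic_of_slope {K M : Set V} (hK : IsBody K) (hM : IsBody M)
    (hd : 0 < finrank ℝ V) (h : slope0 K M = vol M ^ ((1 : ℝ) / finrank ℝ V)) :
    ∃ (a : V) (r : ℝ), 0 < r ∧ K = (fun x => a + r • x) '' M := by
  have hvK : 0 < vol K := Main.vol_pos hK
  have hvM : 0 < vol M := Main.vol_pos hM
  have nM : M.Nonempty := hM.int.mono interior_subset
  set p : ℝ := (1 : ℝ) / finrank ℝ V with hp
  have hmp : 0 < vol M ^ p := Real.rpow_pos_of_pos hvM _
  have hkp : 0 < vol K ^ p := Real.rpow_pos_of_pos hvK _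
  set t : ℝ := vol K ^ p / vol M ^ p with ht
  have ht0 : 0 < t := div_pos hkp hmp
  have hdR : (0 : ℝ) < finrank ℝ V := by exact_mod_cast hd
  have hp0 : 0 < p := by positivity
  have htM : IsBody (t • M) := by
    have := hM.image (LinearEquiv.smulOfNeZero ℝ V t ht0.ne')
    exact this
  have e1 : vol (t • M) = vol K := by
    have h1 : vol (t • M) ^ p = vol K ^ p := by
      rw [hp, vol_smul_root ht0.le _ hd, ← hp, ht, div_mul_cancel₀ _ hmp.ne']
    exact (Real.rpow_left_inj (vol_nonneg _) (vol_nonneg _) hp0.ne').1 h1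
  have hq : quo K M t = vol M ^ p := le_antisymm
    ((quo_le_slope0 hK hM hd ht0).trans h.le) (quo_ge hK hM hd ht0)
  have e2 : vol (K + t • M) ^ p = 2 * vol K ^ p := by
    unfold quo at hq
    rw [div_eq_iff ht0.ne', root_zero nM, ← hp] at hq
    have h3 : vol M ^ p * t = vol K ^ p := by rw [ht]; field_simp
    have h4 : root K M t = vol (K + t • M) ^ p := rfl
    rw [h3, h4] at hq
    linarith
  have e3 : vol ((2⁻¹ : ℝ) • (K + t • M)) = vol K := by
    have h1 : vol ((2⁻¹ : ℝ) • (K + t • M)) ^ p = vol K ^ p := by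
      rw [hp, vol_smul_root (by norm_num) _ hd, ← hp, e2]
      ring
    exact (Real.rpow_left_inj (vol_nonneg _) (vol_nonneg _) hp0.ne').1 h1
  obtain ⟨c, hc⟩ := bm_equality hK htM e1.symm e3
  refine ⟨-c, t, ht0, ?_⟩
  ext x
  constructor
  · intro hx
    have : c + x ∈ t • M := by rw [hc]; exact ⟨x, hx, rfl⟩
    obtain ⟨m, hm, hmx⟩ := this
    refine ⟨m, hm, ?_⟩
    simp only at hmx ⊢
    rw [hmx]
    abel
  · rintro ⟨m, hm, rfl⟩
    have : t • m ∈ t • M := smul_mem_smul_set hm
    rw [hc] at this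
    obtain ⟨k, hk, hkm⟩ := this
    simp only at hkm ⊢
    rw [← hkm]
    simpa using hk

/-- mixed volume of homothetic bodies -/
theorem mixed_homothetic {M : Set V} (hM : IsBody M) (hd : 0 < finrank ℝ V) (a : V) {r : ℝ}
    (hr : 0 < r) {A : ℝ}
    (hA : Tendsto (fun t : ℝ => (vol ((fun x => a + r • x) '' M + t • M) -
      vol ((fun x => a + r • x) '' M)) / (finrank ℝ V * t)) (𝓝[>] 0) (𝓝 A)) :
    A ^ finrank ℝ V = vol ((fun x => a + r • x) '' M) ^ (finrank ℝ V - 1) * vol M := by
  have hvM : 0 < vol M := Main.vol_pos hM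
  obtain ⟨n, hn⟩ : ∃ n, finrank ℝ V = n + 1 := Nat.exists_eq_succ_of_ne_zero hd.ne'
  have hv : ∀ t : ℝ, 0 ≤ t → vol ((fun x => a + r • x) '' M + t • M) = (r + t) ^ (n + 1) * vol M := by
    intro t ht
    have e : (fun x => a + r • x) '' M + t • M = (fun x => a + x) '' ((r + t) • M) := by
      rw [hM.convex.add_smul hr.le ht]
      ext x
      constructor
      · rintro ⟨_, ⟨m, hm, rfl⟩, y, hy, rfl⟩
        exact ⟨r • m + y, ⟨r • m, smul_mem_smul_set hm, y, hy, rfl⟩, by simp only [add_assoc]⟩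
      · rintro ⟨_, ⟨_, ⟨m, hm, rfl⟩, y, hy, rfl⟩, rfl⟩
        exact ⟨a + r • m, ⟨m, hm, rfl⟩, y, hy, by simp only [add_assoc]⟩
    rw [e, vol_image_add_left, vol_smul_set_of_nonneg (by positivity), hn]
  have hv0 : vol ((fun x => a + r • x) '' M) = r ^ (n + 1) * vol M := by
    have := hv 0 le_rfl
    rwa [add_zero_smul (hM.int.mono interior_subset), add_zero] at this
  have hder : HasDerivAt (fun t : ℝ => (r + t) ^ (n + 1) * vol M)
      ((((n + 1 : ℕ) : ℝ) * (r + 0) ^ n * 1) * vol M) 0 := by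
    have h1 : HasDerivAt (fun t : ℝ => r + t) 1 0 := (hasDerivAt_id (0 : ℝ)).const_add r
    have h2 := (h1.pow (n + 1)).mul_const (vol M)
    simpa using h2
  have h2 := hder.hasDerivWithinAt (s := Ioi (0 : ℝ))
  rw [hasDerivWithinAt_iff_tendsto_slope] at h2
  have e : Ioi (0 : ℝ) \ {0} = Ioi 0 := by
    ext x; simp only [Set.mem_sdiff, mem_Ioi, mem_singleton_iff]
    constructor
    · exact fun h => h.1
    · exact fun h => ⟨h, h.ne'⟩
  rw [e] at h2
  have h3 := h2.div_const ((n + 1 : ℕ) : ℝ)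
  have hn0 : ((n + 1 : ℕ) : ℝ) ≠ 0 := by positivity
  have h4 : Tendsto (fun t : ℝ => (vol ((fun x => a + r • x) '' M + t • M) -
      vol ((fun x => a + r • x) '' M)) / (finrank ℝ V * t)) (𝓝[>] 0)
      (𝓝 ((((n + 1 : ℕ) : ℝ) * (r + 0) ^ n * 1) * vol M / ((n + 1 : ℕ) : ℝ))) := by
    refine h3.congr' ?_
    filter_upwards [self_mem_nhdsWithin] with t ht
    rw [slope_def_field, sub_zero, hv t (le_of_lt ht), hv0, hn, div_div, mul_comm t]
    simp
  have h5 := tendsto_nhds_unique hA h4
  rw [h5, hn, hv0, Nat.add_sub_cancel]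
  have h6 : ((((n + 1 : ℕ) : ℝ) * (r + 0) ^ n * 1) * vol M / ((n + 1 : ℕ) : ℝ)) = r ^ n * vol M := by
    rw [add_zero]
    field_simp
  rw [h6, mul_pow, mul_pow, pow_succ (vol M) n, ← pow_mul, ← pow_mul, mul_comm n (n + 1)]
  ring

end Vale.Agent.P237.H344
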